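import Crest.Agent.X212.Sb27.Top
import Crest.Agent.X212.Geo48.Main
import Crest.Agent.X212.Geo48.Xi
import Crest.Agent.X212.Cht98.Jb

/-! SB, GLU-3 (helper27), part 2: all cylindrical walls are closed up. -/

set_option autoImplicit false
set_option linter.unusedSectionVars false
noncomputable section
open scoped Manifold ContDiff Topology
open MeasureTheory Set Function Filter

namespace Crest.Agent.X212.Sb27
open An M G75 Nd18 Cyl58 Cht98 Loc8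
open Sb84 (Stg ClsStmt Gl3Stmt)

variable {κ lam : Type} [Fintype κ] [Fintype lam] [DecidableEq lam]
  {X : Mf 4} {A : Type} [Fintype A] {M : Mark X A κ} {W : World M} {N : ML M lam}

/-- the literal ends of a broken cylindrical wall -/
theorem exists_end (Λ : Lns W N) {m c : M.Cl} {p : Prm A} {a : A} (ha : ∀ b, Act m c a (some b) p) :
    ∃ K : Bool → Nk (N.cy a).yd (Λ.B m c) (Λ.G m c p), Brk99.IsE K := by
  have t : p.2 a = 1 := (ha true).2.1.2 (ha true).2.2.2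
  refine ⟨fun b => (act_ok (ha b)).nk _ Λ (M.gvol a) (cy_iso_refl _) b, fun b => ⟨?_, ?_, fun y s h1 h2 => ?_⟩⟩
  · exact (congrArg (np · b) (act_tv (ha b))).trans ((act_np (ha b)).trans (by simp))
  · exact (congrArg (nq · b) (act_tv (ha b))).trans (act_nq (ha b))
  · refine congrArg (fun s => W.nj c a (y, s)) ?_
    rw [act_tv (ha b), ← t]
    refine li_len ((act_Hs (ha b)).2 ?_)
    cases b <;> simp [pm] at h1 h2 ⊢ <;> constructor <;> linarith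

theorem end_ex (C : Caps M) {c : M.Cl} {a : A} (ha : a ∈ c.1) {b : Bool} {z : (C.Z c).M}
    (hz : z ∈ C.φ c '' (M.bn a).slab {s | pm b * s ∈ Ioo 0 1}) :
    ∃ x ∈ (M.sys.w a).half b, x ∉ M.sys.cores c.1 ∧ C.φ c x = z := by
  obtain ⟨_, ⟨q, hq, rfl⟩, rfl⟩ := hz
  exact ⟨_, ⟨⟨q, rfl⟩, (M.bn a).j_mem_sd.2 hq.2.1⟩, fun j => (hq.2.1.trans_eq (by
    rw [(j_mem_cores ha).1 j, mul_zero])).false, rfl⟩

/-- **GLU-3** -/
theorem gl3 (hK : ClsStmt κ (lam ⊕ lam)) : Gl3Stmt κ lam := by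
  rintro X A _ M W N Λ Bs bs m x cs w t δ O k en c ⟨u, s⟩ π y hW hΛ hS hL hw H hc E
  have := M.con
  have T := H.two
  have hπ := H.pc
  obtain rfl := H.hO
  obtain ⟨π', P⟩ := exists_pa hπ E
  have pO := Geo48.mem_O T.par T.inf u
  have ht : ∀ e, t e < 1 := fun e => H.ht e ▸ two_lt T e
  choose K hE using fun a : {a | a ∈ c.1 ∧ ¬M.pin a} =>
    exists_end Λ (m := m) (a := a.1) fun b => ⟨a.2.2, ⟨T.par, T.inf.ge⟩, pO, a.2.1⟩
  choose β hβ using fun a : {a | a ∈ c.1 ∧ ¬M.pin a} => (hc a a.2.1 a.2.2).2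
  obtain ⟨g1, F, g2⟩ := Geo48.geo κ lam X A M W N Λ Bs bs m c (dp c) u s _ K hW hΛ hS hL T.par T.inf
    (fun _ k => k.1) (Set.ext fun a => and_congr_right fun j => by simp [j])
    (fun a k => ⟨k.2, (hc a k.1 k.2).1⟩) hE
  have : Nonempty (W.Z c).M := ⟨W.φ c (Classical.arbitrary _)⟩
  have := Fintype.ofFinite {a | a ∈ c.1 ∧ ¬M.pin a}
  obtain ⟨R, R0, hK⟩ := hK _ _ _ _ _ _ _ _ K _ _ y β F (Λ.B_ok m c) (Λ.G_ok m pO) (Λ.B_ok m _)
    (fun a => (N.cy_ok a).yd) H.adm hβ fun a a' b b' k => disjoint_left.2 fun z j j' => k (by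
      obtain ⟨v, v1, v2, rfl⟩ := end_ex _ a.2.1 (g1 a b ▸ j)
      obtain ⟨v', w1, w2, e⟩ := end_ex _ a'.2.1 (g1 a' b' ▸ j')
      obtain rfl := W.inj w2 v2 e
      obtain rfl : a = a' := by_contra fun n =>
        disjoint_left.1 (c.2 a.2.1 a'.2.1 (Subtype.coe_ne_coe.2 n)) v1.1 w1.1
      rw [(M.sys.w a).sd_inj v1.2 w1.2])
  obtain ⟨s', t1, t2, t3, K', l, g⟩ := g2 R R0
  obtain ⟨y', y1, y2⟩ := hK _ K' l (Λ.G_ok m (Geo48.mem_O t1 t2 u)) g
  have et : ∀ e, s' (x e) = s (x e) := fun e => t3 _ fun k => (T.fr e).1 k.1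
  have fr := fun e => fr_mono (d := dp c) up_dp.1 (T.fr e)
  have pre := pre_pz W.toCaps hπ P (T.fr true) (r := -1) (by norm_num)
  have oO := (M.sys.isOpen_U π).inter (isOpen_hf (M := M) (x true) true)
  have sO : M.sys.U π ∩ hf M (x true) true ⊆ _ := inter_subset_left.trans (P.sub.trans (U_src W.toCaps P.pc))
  obtain ⟨y2, y3⟩ := y2 (oz W.toCaps (dp c) (M.sys.U π ∩ hf M (x true) true)) isOpen_interior fun v hv => by
    obtain ⟨z, rfl⟩ := oz_range W.toCaps hπ P hv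
    refine ⟨z, fun k => ?_, rfl⟩
    obtain ⟨a, k⟩ := mem_iUnion.1 k
    obtain ⟨b, k⟩ := mem_iUnion.1 k
    obtain ⟨v, v1, v2, rfl⟩ := end_ex _ a.2.1 (g1 a b ▸ k)
    have j := mem_of_oz _ oO sO (Mark.cores_mono up_dp.1 v2) (W.up_φ up_dp v2 ▸ hv)
    exact (E a (Sys.mem_bd_of (hπ.eq_some c.2 a.2.1 j.1 v1))).elim a.2.2 fun i =>
      disjoint_left.1 i.2 (.inr v1.1) j.2
  have s1 : Pz W.toCaps (dp c) π' (x true) (-1) ⊆ _ := P.eq ▸ pz_oz _ P.pc (fr true) (by norm_num)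
  have s2 : W.pc (dp c) π' ∩ w.K W.toCaps (dp c) t x ⊆ Pz W.toCaps (dp c) π' (x true) (-1) :=
    fun z k => ⟨k.1, K_pos _ fr hw ht (T.ord true) k.2⟩
  have e1 := (y3 _ (w.g W.toCaps (dp c) t x) (pz_op W.toCaps P.pc (fr true)).measurableSet s1).2
  have e2 := (y3 _ (fun _ => 1) ((isOpen_pc W.toCaps P.pc).measurableSet.inter
    (K_closed _ w fr ht).measurableSet) (s2.trans s1)).1
  have e3 : W.up (dp c) c ⁻¹' (W.pc (dp c) π' ∩ w.K W.toCaps (dp c) t x) =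
      W.pc c π ∩ w.K W.toCaps c t x := by
    refine Set.ext fun z => ?_
    rw [preimage_inter, K_up _ w T.fr up_dp]
    exact and_congr_left fun k => ⟨fun j => (pre.le (s2 ⟨j, (K_up _ w T.fr up_dp).ge k⟩)).1,
      fun j => (pre.ge ⟨j, K_pos _ T.fr hw ht (T.ord true) k⟩).1⟩
  simp only [one_mul, g_up _ w T.fr up_dp, pre, e3] at e1 e2
  obtain ⟨ξ, hξ⟩ := H.rd
  exact ⟨dp c, (u, s'), π', y', fun _ k => k.2, ⟨t1, t2, fr, T.pin, fun e => (T.half e).trans_eq (et e).symm,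
    T.yc, T.qhs, T.ord⟩, fun e => (et e).trans (H.ht e), P.pc, P.eq.symm, y1,
    y2 ξ (Geo48.red_mono hξ.toRedOn (pre_oz _ up_dp oO sO)),
    ((int_pz _ hw P.pc _ _).trans (e1.trans (int_pz _ hw hπ _ _).symm)).trans_le H.kd, e2.trans_le H.en⟩

end Crest.Agent.X212.Sb27
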