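import Crest.Agent.X212.Sb84.Defs
import Crest.Agent.X212.Geo48.Nk

/-! SB, GLU-3 (helper27), part 1: pieces and windows before and after closing the cylindrical walls. -/

set_option autoImplicit false
set_option linter.unusedSectionVars false
noncomputable section
open scoped Manifold ContDiff Topology
open MeasureTheory Set Function Filter

namespace Crest.Agent.X212.Sb27
open An M G75 Cyl58 Cht98 Loc8
open Sb84 (ar)

variable {X : Mf 4} {A κ : Type} [Fintype A] [Fintype κ] {M : Mark X A κ} (C : Caps M)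
  {c d : M.Cl} {π π' : Reg A} {h : A} {r : ℝ}

theorem fr_mono (hU : d.1 ⊆ c.1) (hh : h ∈ M.sys.fr c.1) : h ∈ M.sys.fr d.1 :=
  ⟨fun k => hh.1 (hU k), fun a' k => hh.2 a' (hU k)⟩

theorem hZ_up (hU : M.Up d c) (hh : h ∈ M.sys.fr c.1) (z : (C.Z c).M) :
    hZ C d h (C.up d c z) = hZ C c h z := by
  rcases caps_surj C z with ⟨x, hx, rfl⟩ | ⟨a', h1, h2, b, rfl⟩
  · rw [C.up_φ hU hx, hZ_φ C (.inr (fr_mono hU.1 hh)) (Mark.cores_mono hU.1 hx), hZ_φ C (.inr hh) hx]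
  · rw [C.up_β hU h1 h2]
    have k : hZ C c h (C.β c a' b 0) = _ := (capsD C c).lift_cap _ _ ⟨(a', b), h1, h2⟩ (0 : V4)
    exact ((capsD C d).lift_cap _ _ ⟨(a', b), hU.2 a' h1 h2, h2⟩ (0 : V4)).trans k.symm

theorem ar_up (hU : M.Up d c) (hh : h ∈ M.sys.fr c.1) (t : ℝ) (z : (C.Z c).M) :
    ar C d t h (C.up d c z) = ar C c t h z := congrArg (len t false) (hZ_up C hU hh z)

theorem ar_cont (hh : h ∈ M.sys.fr c.1) {t : ℝ} (ht : t < 1) : Continuous (ar C c t h) :=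
  (contDiffOn_len t false).continuousOn.comp_continuous (sm_hZ C (.inr hh)).continuous fun _ => .inl ht

theorem lt_hZ {t : ℝ} {z : (C.Z c).M} (k : 0 < ar C c t h z) : -1 < hZ C c h z := not_le.1 fun j => by
  rw [ar, len_outer (by simp only [pm]; norm_num; linarith)] at k
  simp only [pm] at k; norm_num at k; linarith

theorem hZ_lt {t : ℝ} (ht : t < 1) {z : (C.Z c).M} (k : ar C c t h z < nl t) : hZ C c h z < 1 :=
  not_le.1 fun j => by
    rw [ar, len_false ht, len_outer (by simpa [pm] using j)] at k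
    simp only [pm] at k; norm_num at k; linarith

theorem mem_hf (hr : -3 ≤ r) {x : X.M} (k : r < (M.bn h).s x) : x ∈ hf M h true :=
  (lt_or_ge 0 ((M.bn h).s x)).imp (fun j => (M.bn h).mem_sd.2 (by simpa [pm] using j)) fun j =>
    let ⟨_, e⟩ := (M.bn h).exists_of_abs_s_lt (x := x) (abs_lt.2 ⟨by linarith, by linarith⟩); ⟨_, e⟩

theorem mem_of_oz {O : Set X.M} (hO : IsOpen O) (hs : O ⊆ (C.φ c).source) {x : X.M}
    (hx : x ∉ M.sys.cores c.1) (k : C.φ c x ∈ oz C c O) : x ∈ O := by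
  obtain ⟨y, j, e⟩ : C.φ c x ∈ C.φ c '' O := oz_diff C hO hs ▸
    ⟨k, fun ⟨a, ha, hp, b, e⟩ => caps_ne C hx ha hp b e.symm⟩
  exact C.inj ((C.mem_src c).1 (hs j)) hx e ▸ j

theorem pre_oz (hU : M.Up d c) {O : Set X.M} (hO : IsOpen O) (hs : O ⊆ (C.φ d).source) :
    C.up d c ⁻¹' oz C d O ⊆ oz C c O :=
  sub_oz C (isOpen_interior.preimage (C.up_oe hU).continuous) fun z hz => by
    obtain ⟨x, hx, rfl⟩ := (caps_surj C z).resolve_right hz.2
    exact ⟨x, mem_of_oz C hO hs (Mark.cores_mono hU.1 hx) (C.up_φ hU hx ▸ hz.1), rfl⟩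

theorem isOpen_hf (h : A) (b : Bool) : IsOpen (hf M h b) := ((M.sys.w h).op_sd b).union (M.sys.w h).op_band

variable (c π h r) in
/-- the part of the piece above the height `r` of `h` -/
def Pz : Set (C.Z c).M := C.pc c π ∩ {z | r < hZ C c h z}

section pz
variable (hπ : M.sys.Piece c.1 π) (hh : h ∈ M.sys.fr c.1)
include hπ hh

theorem pz_op : IsOpen (Pz C c π h r) :=
  (isOpen_pc C hπ).inter (isOpen_lt continuous_const (sm_hZ C (.inr hh)).continuous)

theorem pz_diff (hr : -3 ≤ r) : Pz C c π h r \ ctr C c ⊆ C.φ c '' (M.sys.U π ∩ hf M h true) := fun z hz => by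
  obtain ⟨x, hx, rfl⟩ := (caps_surj C z).resolve_right hz.2
  exact ⟨x, ⟨(φ_mem_pc C hπ hx).1 hz.1.1, mem_hf hr (hZ_φ C (.inr hh) hx ▸ hz.1.2)⟩, rfl⟩

theorem pz_oz (hr : -3 ≤ r) : Pz C c π h r ⊆ oz C c (M.sys.U π ∩ hf M h true) :=
  sub_oz C (pz_op C hπ hh) (pz_diff C hπ hh hr)

theorem pz_ne (hr : -3 ≤ r) {z : (C.Z c).M} (hz : z ∈ Pz C c π h r) : (M.sys.U π ∩ hf M h true).Nonempty :=
  Nonempty.of_image (Nonempty.of_closure ⟨z, oz_closure C ((M.sys.isOpen_U π).inter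
    (isOpen_hf h true)) (inter_subset_left.trans (U_src C hπ)) (pz_oz C hπ hh hr hz)⟩)

end pz

variable (c) in
/-- the pinch walls of the cell -/
def dp : M.Cl := ⟨{a ∈ c.1 | M.pin a}, c.2.mono fun _ k => k.1⟩

theorem up_dp : M.Up (dp c) c := ⟨fun _ k => k.1, fun _ k j => ⟨k, j⟩⟩

variable (M π h) in
/-- the cylindrical ends of the piece lie on the left of `h` -/
def Ea : Prop := ∀ a ∈ Sys.bd π, M.pin a ∨ π a = some true ∧ Disjoint (hf M a false) (hf M h true)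

variable (M c π π' h) in
/-- the piece after closing the cylindrical walls -/
structure Pa : Prop where
  pc : M.sys.Piece (dp c).1 π'
  sub : M.sys.U π ⊆ M.sys.U π'
  eq : M.sys.U π' ∩ hf M h true = M.sys.U π ∩ hf M h true

variable (hπ : M.sys.Piece c.1 π)
include hπ

theorem exists_pa (E : Ea M π h) : ∃ π', Pa M c π π' h := by
  have := M.con
  obtain ⟨x, hx⟩ := hπ.toIsReg.nonempty
  obtain ⟨π', h1, h2⟩ := Sys.exists_piece (dp c).2
    (Mark.cores_mono up_dp.1 (disjoint_left.1 (hπ.disjoint_cores c.2) hx))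
  have sub := Geo48.U_sub_of (h1.bd_subset.trans up_dp.1) hπ hx h2
  refine ⟨π', h1, sub, Subset.antisymm (fun y hy => ⟨fun a b k => ?_, hy.2⟩) (inter_subset_inter_left _ sub)⟩
  rcases E a (Sys.mem_bd_of k) with e | e
  · obtain ⟨b', j⟩ := h1.side (dp c).2 ⟨hπ.bd_subset (Sys.mem_bd_of k), e⟩
    rw [(M.sys.w a).sd_inj (hx a b k) (j h2)]; exact j hy.1
  · obtain rfl := Option.some.inj (e.1.symm.trans k)
    exact by_contra fun j => disjoint_left.1 e.2 ((M.sys.w a).compl_subset true j) hy.2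

variable (P : Pa M c π π' h)
include P

theorem oz_range : oz C (dp c) (M.sys.U π ∩ hf M h true) ⊆ range (C.up (dp c) c) := fun _ hw =>
  have := M.con
  (C.mem_range_up up_dp).2 fun _ hx e => disjoint_left.1 (hπ.disjoint_cores c.2) (mem_of_oz C
    ((M.sys.isOpen_U π).inter (isOpen_hf h true)) (inter_subset_left.trans (P.sub.trans (U_src C P.pc))) hx
      (e ▸ hw)).1

theorem pre_pz (hh : h ∈ M.sys.fr c.1) (hr : -3 ≤ r) :
    C.up (dp c) c ⁻¹' Pz C (dp c) π' h r = Pz C c π h r := by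
  have := M.con
  refine Set.ext fun z => ?_
  rw [mem_preimage, Pz, mem_inter_iff, mem_ofPred_eq, hZ_up C up_dp hh, Geo48.up_mem_pc C up_dp P.pc]
  refine and_congr_left fun k => ⟨fun ⟨ρ, j, i⟩ => ?_, fun i => ⟨π, ⟨hπ, P.sub⟩, i⟩⟩
  obtain ⟨y, hy⟩ := pz_ne C j.1 hh hr ⟨i, k⟩
  exact j.1.unique c.2 hπ hy.1 (P.eq.le ⟨j.2 hy.1, hy.2⟩).1 ▸ i

omit P in
/-- **the compact set for the gluing** -/
theorem cpt' (hh : h ∈ M.sys.fr c.1) (E : Ea M π h) (hr : -3 < r) :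
    IsCompact (C.pc c π ∩ {z | r ≤ hZ C c h z}) := by
  obtain ⟨π', P⟩ := exists_pa hπ E
  have hd := fr_mono (d := dp c) up_dp.1 hh
  have s : C.pc (dp c) π' ∩ {z | r ≤ hZ C (dp c) h z} ⊆ Pz C (dp c) π' h (-3) :=
    fun z k => ⟨k.1, hr.trans_le k.2⟩
  have k := ((C.up_oe up_dp).isOpenEmbedding.isInducing.isCompact_preimage_iff
    (s.trans ((P.eq ▸ pz_oz C P.pc hd le_rfl).trans (oz_range C hπ P)))).2
    ((isCompact_pc C P.pc fun _ k => (P.pc.bd_subset k).2).inter_right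
      (isClosed_le continuous_const (sm_hZ C (.inr hd)).continuous))
  convert k using 1
  refine Set.ext fun z => ?_
  have := Set.ext_iff.1 (pre_pz C hπ P hh le_rfl) z
  simp only [mem_preimage, Pz, mem_inter_iff, mem_ofPred_eq, hZ_up C up_dp hh] at this ⊢
  exact and_congr_left fun j => ⟨fun i => (this.2 ⟨i, hr.trans_le j⟩).1, fun i => (this.1 ⟨i, hr.trans_le j⟩).1⟩

omit P in
theorem cpt (hh : h ∈ M.sys.fr c.1) (E : Ea M π h) : IsCompact (C.pc c π ∩ {z | -1 ≤ hZ C c h z}) :=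
  cpt' C hπ hh E (by norm_num)

omit hπ P

/-! ### windows -/

variable {x : Bool → A} (w : Sb84.Wd) {t : Bool → ℝ} (hx : ∀ e, x e ∈ M.sys.fr c.1)

theorem two_lt {cs : ℝ} {p : Prm A} (T : Sb84.Two M x cs c p) (e : Bool) : p.2 (x e) < 1 :=
  Geo48.mem_O T.par T.inf 0 _ (T.fr e)

include hx

theorem g_up (hU : M.Up d c) (z : (C.Z c).M) : w.g C d t x (C.up d c z) = w.g C c t x z := by
  simp only [Sb84.Wd.g, ar_up C hU (hx _)]

theorem K_up (hU : M.Up d c) : C.up d c ⁻¹' w.K C d t x = w.K C c t x := Set.ext fun z => by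
  simp only [Sb84.Wd.K, mem_preimage, mem_iUnion, ar_up C hU (hx _)]

theorem K_closed (ht : ∀ e, t e < 1) : IsClosed (w.K C c t x) :=
  isClosed_iUnion_of_finite fun e => isClosed_Icc.preimage (ar_cont C (hx e) (ht e))

variable {w} {δ : ℝ} (hw : w.OK t δ)
include hw

theorem g_cont (ht : ∀ e, t e < 1) : Continuous (w.g C c t x) :=
  ((hw.sm true).continuous.comp (ar_cont C (hx _) (ht _))).mul
    ((hw.sm false).continuous.comp (ar_cont C (hx _) (ht _)))

omit hx in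
theorem g_mem (z : (C.Z c).M) : w.g C c t x z ∈ Icc (0 : ℝ) 1 :=
  ⟨mul_nonneg (hw.mem _ _).1 (hw.mem _ _).1, mul_le_one₀ (hw.mem _ _).2 (hw.mem _ _).1 (hw.mem _ _).2⟩

omit hx in
theorem g_zero {z : (C.Z c).M} (hz : hZ C c (x true) z ≤ -1) : w.g C c t x z = 0 :=
  mul_eq_zero_of_left (hw.lo true _ ((not_lt.1 fun k => (lt_hZ C k).not_ge hz).trans (hw.s0 _).le)) _

/-- a point of a window lies in the band -/
theorem K_band (ht : ∀ e, t e < 1) {z : (C.Z c).M} {e : Bool}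
    (k : ar C c (t e) (x e) z ∈ Icc (w.s e) (w.s' e)) :
    ∃ y ∈ (M.sys.w (x e)).band, y ∉ M.sys.cores c.1 ∧ C.φ c y = z :=
  let ⟨_, h1, h2⟩ := exists_of_hZ C (.inr (hx e)) (z := z) (abs_lt.2
    ⟨by linarith [lt_hZ C ((hw.s0 _).trans_le k.1)], by linarith [hZ_lt C (ht e) (k.2.trans_lt (hw.s1 _))]⟩)
  ⟨_, ⟨_, rfl⟩, h1, h2⟩

theorem K_pos (ht : ∀ e, t e < 1) (ho : (M.sys.w (x false)).band ⊆ (M.sys.w (x true)).sd true)
    {z : (C.Z c).M} (hz : z ∈ w.K C c t x) : -1 < hZ C c (x true) z := by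
  obtain ⟨e, k⟩ := mem_iUnion.1 hz
  cases e
  · obtain ⟨y, y1, y2, rfl⟩ := K_band C hx hw ht k
    have := (hb_pos C (hx true) y2).2 (ho y1)
    simp only [hb, pm, if_true, one_mul] at this
    linarith
  · exact lt_hZ C ((hw.s0 _).trans_le k.1)

omit hx in
theorem int_pz (hπ : M.sys.Piece c.1 π) (μ : Measure (C.Z c).M) (f : (C.Z c).M → ℝ) :
    ∫ z in C.pc c π, w.g C c t x z * f z ∂μ = ∫ z in Pz C c π (x true) (-1), w.g C c t x z * f z ∂μ :=
  setIntegral_eq_of_subset_of_forall_diff_eq_zero (isOpen_pc C hπ).measurableSet inter_subset_left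
    fun z hz => by rw [g_zero C hw (not_lt.1 fun k => hz.2 ⟨hz.1, k⟩), zero_mul]

end Crest.Agent.X212.Sb27
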